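import Mathlib.RingTheory.Nullstellensatz
import Mathlib.RingTheory.Ideal.KrullsHeightTheorem
import Mathlib.RingTheory.MvPolynomial.Basic
import Mathlib.Tactic.FinCases

/-!
Two ternary polynomials without constant term have a common zero other than the origin.
-/

namespace Vale.Agent.P297.H424.Z3

open MvPolynomial

variable {k : Type} [Field k]

/-- the ideal of the polynomials that vanish after killing the first variables -/
noncomputable def kil (w : Fin 3 → k) : Ideal (MvPolynomial (Fin 3) k) :=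
  RingHom.ker (aeval (fun i => C (w i) * X i) : MvPolynomial (Fin 3) k →ₐ[k]
    MvPolynomial (Fin 3) k).toRingHom

instance (w : Fin 3 → k) : (kil w).IsPrime := RingHom.ker_isPrime _

theorem mem_kil (w : Fin 3 → k) (p : MvPolynomial (Fin 3) k) :
    p ∈ kil w ↔ aeval (fun i => C (w i) * X i) p = (0 : MvPolynomial (Fin 3) k) := Iff.rfl

theorem kil_le {w w' : Fin 3 → k} (c : Fin 3 → k) (h : ∀ i, w' i = c i * w i) :
    kil w ≤ kil w' := by
  intro p hp
  rw [mem_kil] at hp ⊢
  have h1 := congrArg (aeval (fun i => C (c i) * X i) : MvPolynomial (Fin 3) k →ₐ[k]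
    MvPolynomial (Fin 3) k) hp
  rw [map_zero] at h1
  rw [← h1]
  have h2 : (aeval (fun i => C (w' i) * X i) : MvPolynomial (Fin 3) k →ₐ[k]
      MvPolynomial (Fin 3) k) = (aeval (fun i => C (c i) * X i)).comp
        (aeval (fun i => C (w i) * X i)) := by
    apply MvPolynomial.algHom_ext
    intro i
    simp only [AlgHom.comp_apply, aeval_X, map_mul, algHom_C, h]
    simp only [MvPolynomial.algebraMap_eq]
    ring
  rw [h2]
  rfl

theorem X_mem_kil (w : Fin 3 → k) (i : Fin 3) : X i ∈ kil w ↔ w i = 0 := by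
  rw [mem_kil, aeval_X]
  constructor
  · intro h
    rcases mul_eq_zero.1 h with h | h
    · exact (C_eq_zero).1 h
    · exact absurd h (X_ne_zero i)
  · intro h
    rw [h, C_0, zero_mul]

theorem height_kil : (3 : ℕ∞) ≤ (kil (fun _ => (0 : k))).height := by
  have h1 : (⊥ : Ideal (MvPolynomial (Fin 3) k)) < kil ![(0 : k), 1, 1] := by
    refine lt_of_le_of_ne bot_le fun h => ?_
    have h2 : (X 0 : MvPolynomial (Fin 3) k) ∈ kil ![(0 : k), 1, 1] := (X_mem_kil _ _).2 rfl
    rw [← h, Ideal.mem_bot] at h2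
    exact X_ne_zero _ h2
  have h2 : kil ![(0 : k), 1, 1] < kil ![(0 : k), 0, 1] := by
    refine lt_of_le_of_ne (kil_le ![0, 0, 1] (by intro i; fin_cases i <;> simp)) fun h => ?_
    have h2 : (X 1 : MvPolynomial (Fin 3) k) ∈ kil ![(0 : k), 0, 1] := (X_mem_kil _ _).2 rfl
    rw [← h] at h2
    exact one_ne_zero ((X_mem_kil _ _).1 h2)
  have h3 : kil ![(0 : k), 0, 1] < kil (fun _ => (0 : k)) := by
    refine lt_of_le_of_ne (kil_le 0 (by intro i; simp)) fun h => ?_
    have h2 : (X 2 : MvPolynomial (Fin 3) k) ∈ kil (fun _ => (0 : k)) := (X_mem_kil _ _).2 rfl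
    rw [← h] at h2
    exact one_ne_zero ((X_mem_kil _ _).1 h2)
  have k1 := Ideal.height_add_one_le_of_lt_of_isPrime h1
  have k2 := Ideal.height_add_one_le_of_lt_of_isPrime h2
  have k3 := Ideal.height_add_one_le_of_lt_of_isPrime h3
  calc (3 : ℕ∞) = 0 + 1 + 1 + 1 := by norm_num
    _ ≤ (⊥ : Ideal (MvPolynomial (Fin 3) k)).height + 1 + 1 + 1 := by gcongr; exact bot_le
    _ ≤ (kil ![(0 : k), 1, 1]).height + 1 + 1 := by gcongr
    _ ≤ (kil ![(0 : k), 0, 1]).height + 1 := by gcongr
    _ ≤ _ := k3

theorem kil_zero : kil (fun _ => (0 : k)) = vanishingIdeal k {(0 : Fin 3 → k)} := by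
  ext p
  rw [mem_kil, mem_vanishingIdeal_singleton_iff]
  have h : (aeval (fun i => C ((fun _ => (0 : k)) i) * X i) p : MvPolynomial (Fin 3) k) =
      C (aeval (0 : Fin 3 → k) p) := by
    have h2 : (aeval (fun i => C ((fun _ => (0 : k)) i) * X i) : MvPolynomial (Fin 3) k →ₐ[k]
        MvPolynomial (Fin 3) k) = (Algebra.ofId k (MvPolynomial (Fin 3) k)).comp
          (aeval (0 : Fin 3 → k)) := by
      apply MvPolynomial.algHom_ext
      intro i
      simp
    rw [h2]
    rfl
  rw [h, C_eq_zero]

/-- Two ternary polynomials without constant term have a common zero other than the origin. -/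
theorem common_zero [IsAlgClosed k] (F H : MvPolynomial (Fin 3) k)
    (hF : aeval (0 : Fin 3 → k) F = 0) (hH : aeval (0 : Fin 3 → k) H = 0) :
    ∃ v : Fin 3 → k, v ≠ 0 ∧ aeval v F = 0 ∧ aeval v H = 0 := by
  classical
  by_contra hcon
  push Not at hcon
  have h1 : zeroLocus k (Ideal.span (({F, H} : Finset (MvPolynomial (Fin 3) k)) : Set (MvPolynomial (Fin 3) k))) =
      {(0 : Fin 3 → k)} := by
    ext v
    rw [zeroLocus_span, Set.mem_ofPred_eq, Set.mem_singleton_iff]
    constructor
    · intro h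
      by_contra hv
      exact hcon v hv (h F (by simp)) (h H (by simp))
    · rintro rfl p hp
      simp only [Finset.coe_insert, Finset.coe_singleton, Set.mem_insert_iff,
        Set.mem_singleton_iff] at hp
      rcases hp with rfl | rfl
      · exact hF
      · exact hH
  have h2 := vanishingIdeal_zeroLocus_eq_radical (K := k)
    (Ideal.span (({F, H} : Finset (MvPolynomial (Fin 3) k)) : Set (MvPolynomial (Fin 3) k)))
  rw [h1, ← kil_zero] at h2
  have h3 : kil (fun _ => (0 : k)) ∈
      (Ideal.span (({F, H} : Finset (MvPolynomial (Fin 3) k)) : Set (MvPolynomial (Fin 3) k))).minimalPrimes := by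
    refine ⟨⟨inferInstance, ?_⟩, ?_⟩
    · rw [h2]
      exact Ideal.le_radical
    · rintro q ⟨hq, hle⟩ _
      rw [h2]
      exact (Ideal.radical_mono hle).trans hq.radical.le
  have h4 := Ideal.height_le_card_of_mem_minimalPrimes_span_finset h3
  have h5 : (({F, H} : Finset (MvPolynomial (Fin 3) k)).card : ℕ∞) ≤ 2 := by
    exact_mod_cast Finset.card_le_two
  have h6 := (height_kil.trans h4).trans h5
  exact absurd h6 (by norm_num)

end Vale.Agent.P297.H424.Z3
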