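import Vale.Agent.P297.H572.Z3.Defs
import Vale.Agent.P297.H424.Z3.Zero

/-!
The Weierstrass normal form of a smooth plane cubic over an algebraically closed field of
characteristic zero.
-/

namespace Vale.Agent.P297.Z3

open MvPolynomial

set_option linter.unusedVariables false
set_option linter.unusedSectionVars false

section

variable {R : Type} [CommRing R]

/-- The derivative of the cubic at `p` in the direction `q`. -/
def dc (f : Fin 10 → R) (p q : Fin 3 → R) : R :=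
  (3 * f 0 * p 0 ^ 2 + 2 * f 1 * p 0 * p 1 + 2 * f 2 * p 0 * p 2 + f 3 * p 1 ^ 2 +
    f 4 * p 1 * p 2 + f 5 * p 2 ^ 2) * q 0 +
  (f 1 * p 0 ^ 2 + 2 * f 3 * p 0 * p 1 + f 4 * p 0 * p 2 + 3 * f 6 * p 1 ^ 2 +
    2 * f 7 * p 1 * p 2 + f 8 * p 2 ^ 2) * q 1 +
  (f 2 * p 0 ^ 2 + f 4 * p 0 * p 1 + 2 * f 5 * p 0 * p 2 + f 7 * p 1 ^ 2 +
    2 * f 8 * p 1 * p 2 + 3 * f 9 * p 2 ^ 2) * q 2

/-- The Hessian matrix of the cubic at `v`. -/
def hm (f : Fin 10 → R) (v : Fin 3 → R) : Matrix (Fin 3) (Fin 3) R :=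
  !![6 * f 0 * v 0 + 2 * f 1 * v 1 + 2 * f 2 * v 2, 2 * f 1 * v 0 + 2 * f 3 * v 1 + f 4 * v 2,
      2 * f 2 * v 0 + f 4 * v 1 + 2 * f 5 * v 2;
    2 * f 1 * v 0 + 2 * f 3 * v 1 + f 4 * v 2, 2 * f 3 * v 0 + 6 * f 6 * v 1 + 2 * f 7 * v 2,
      f 4 * v 0 + 2 * f 7 * v 1 + 2 * f 8 * v 2;
    2 * f 2 * v 0 + f 4 * v 1 + 2 * f 5 * v 2, f 4 * v 0 + 2 * f 7 * v 1 + 2 * f 8 * v 2,
      2 * f 5 * v 0 + 2 * f 8 * v 1 + 6 * f 9 * v 2]

/-- The bilinear form of the Hessian matrix. -/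
def hb (f : Fin 10 → R) (v p q : Fin 3 → R) : R :=
  p 0 * ((6 * f 0 * v 0 + 2 * f 1 * v 1 + 2 * f 2 * v 2) * q 0 +
    (2 * f 1 * v 0 + 2 * f 3 * v 1 + f 4 * v 2) * q 1 +
    (2 * f 2 * v 0 + f 4 * v 1 + 2 * f 5 * v 2) * q 2) +
  p 1 * ((2 * f 1 * v 0 + 2 * f 3 * v 1 + f 4 * v 2) * q 0 +
    (2 * f 3 * v 0 + 6 * f 6 * v 1 + 2 * f 7 * v 2) * q 1 +
    (f 4 * v 0 + 2 * f 7 * v 1 + 2 * f 8 * v 2) * q 2) +
  p 2 * ((2 * f 2 * v 0 + f 4 * v 1 + 2 * f 5 * v 2) * q 0 +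
    (f 4 * v 0 + 2 * f 7 * v 1 + 2 * f 8 * v 2) * q 1 +
    (2 * f 5 * v 0 + 2 * f 8 * v 1 + 6 * f 9 * v 2) * q 2)

/-- The coefficients of the cubic in the coordinates with basis `p`, `q`, `r`. -/
def sc (f : Fin 10 → R) (p q r : Fin 3 → R) : Fin 10 → R :=
  ![tv f p, dc f p q, dc f p r, dc f q p, hb f p q r, dc f r p, tv f q, dc f q r, dc f r q, tv f r]

/-- The matrix with columns `p`, `q`, `r`. -/
def cm (p q r : Fin 3 → R) : Matrix (Fin 3) (Fin 3) R :=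
  !![p 0, q 0, r 0; p 1, q 1, r 1; p 2, q 2, r 2]

theorem cm_mulVec (p q r v : Fin 3 → R) :
    (cm p q r).mulVec v = ![p 0 * v 0 + q 0 * v 1 + r 0 * v 2, p 1 * v 0 + q 1 * v 1 + r 1 * v 2,
      p 2 * v 0 + q 2 * v 1 + r 2 * v 2] := by
  ext i
  fin_cases i <;> simp [cm, Matrix.mulVec, dotProduct, Fin.sum_univ_three]

theorem cm_det (p q r : Fin 3 → R) : (cm p q r).det =
    p 0 * (q 1 * r 2 - q 2 * r 1) - q 0 * (p 1 * r 2 - p 2 * r 1) +
      r 0 * (p 1 * q 2 - p 2 * q 1) := by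
  rw [cm, Matrix.det_fin_three]
  simp only [Matrix.of_apply, Matrix.cons_val_zero, Matrix.cons_val_one, Matrix.cons_val]
  ring

theorem isSub_cm (f : Fin 10 → R) (p q r : Fin 3 → R) : IsSub f (cm p q r) (sc f p q r) := by
  intro v
  rw [cm_mulVec]
  simp only [tv, tc, sc, dc, hb, Matrix.cons_val_zero, Matrix.cons_val_one, Matrix.cons_val]
  ring

theorem c4_singular (g : Fin 10 → R) (h5 : g 5 = 0) (h8 : g 8 = 0) (h9 : g 9 = 0) :
    c4 g ^ 3 = c6 g ^ 2 := by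
  simp only [c4, c6, h5, h8, h9]
  ring

theorem c4_reducible (g : Fin 10 → R) (h0 : g 0 = 0) (h1 : g 1 = 0) (h3 : g 3 = 0)
    (h6 : g 6 = 0) : c4 g ^ 3 = c6 g ^ 2 := by
  simp only [c4, c6, h0, h1, h3, h6]
  ring

theorem c4_smul (c : R) (g : Fin 10 → R) : c4 (fun i => c * g i) = c ^ 4 * c4 g := by
  simp only [c4]
  ring

theorem c6_smul (c : R) (g : Fin 10 → R) : c6 (fun i => c * g i) = c ^ 6 * c6 g := by
  simp only [c6]
  ring

theorem c4_wf (a b : R) : c4 (wf a b) = -48 * a := by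
  simp only [c4, wf, Matrix.cons_val_zero, Matrix.cons_val_one, Matrix.cons_val]
  ring

theorem c6_wf (a b : R) : c6 (wf a b) = -864 * b := by
  simp only [c6, wf, Matrix.cons_val_zero, Matrix.cons_val_one, Matrix.cons_val]
  ring

end

section

variable {k : Type} [Field k] [CharZero k]

theorem cov (hS : StmtCov) (f : Fin 10 → k) (hf : c4 f ^ 3 ≠ c6 f ^ 2) (p q r : Fin 3 → k)
    (hd : (cm p q r).det ≠ 0) : c4 (sc f p q r) ^ 3 ≠ c6 (sc f p q r) ^ 2 := by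
  obtain ⟨h4, h6⟩ := hS k f (sc f p q r) (cm p q r) hd (isSub_cm f p q r)
  rw [h4, h6]
  intro h
  apply hf
  have h2 : (cm p q r).det ^ 12 ≠ 0 := pow_ne_zero 12 hd
  apply mul_left_cancel₀ h2
  linear_combination h

theorem exists_third {p q : Fin 3 → k} (h : ¬ (p 1 * q 2 - p 2 * q 1 = 0 ∧
    p 2 * q 0 - p 0 * q 2 = 0 ∧ p 0 * q 1 - p 1 * q 0 = 0)) :
    ∃ r : Fin 3 → k, (cm p q r).det = -1 := by
  by_cases h0 : p 1 * q 2 - p 2 * q 1 = 0
  · by_cases h1 : p 2 * q 0 - p 0 * q 2 = 0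
    · have h2 : p 0 * q 1 - p 1 * q 0 ≠ 0 := fun h2 => h ⟨h0, h1, h2⟩
      refine ⟨![0, 0, -(p 0 * q 1 - p 1 * q 0)⁻¹], ?_⟩
      rw [cm_det]
      simp only [Matrix.cons_val_zero, Matrix.cons_val_one, Matrix.cons_val]
      linear_combination (-1 : k) * mul_inv_cancel₀ h2
    · refine ⟨![0, -(p 2 * q 0 - p 0 * q 2)⁻¹, 0], ?_⟩
      rw [cm_det]
      simp only [Matrix.cons_val_zero, Matrix.cons_val_one, Matrix.cons_val]
      linear_combination (-1 : k) * mul_inv_cancel₀ h1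
  · refine ⟨![-(p 1 * q 2 - p 2 * q 1)⁻¹, 0, 0], ?_⟩
    rw [cm_det]
    simp only [Matrix.cons_val_zero, Matrix.cons_val_one, Matrix.cons_val]
    linear_combination (-1 : k) * mul_inv_cancel₀ h0

theorem exists_basis {r : Fin 3 → k} (h : r ≠ 0) : ∃ p q : Fin 3 → k, (cm p q r).det ≠ 0 := by
  by_cases h0 : r 0 = 0
  · by_cases h1 : r 1 = 0
    · have h2 : r 2 ≠ 0 := by
        intro h2
        apply h
        ext i
        fin_cases i
        · exact h0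
        · exact h1
        · exact h2
      refine ⟨![1, 0, 0], ![0, 1, 0], ?_⟩
      rw [cm_det]
      simpa using h2
    · refine ⟨![1, 0, 0], ![0, 0, 1], ?_⟩
      rw [cm_det]
      simpa using h1
  · refine ⟨![0, 1, 0], ![0, 0, 1], ?_⟩
    rw [cm_det]
    simpa using h0

/-- A cubic with nonzero discriminant is smooth. -/
theorem smooth (hS : StmtCov) (f : Fin 10 → k) (hf : c4 f ^ 3 ≠ c6 f ^ 2) {v : Fin 3 → k}
    (hv : v ≠ 0) (h0 : tv f v = 0) (h : ∀ q, dc f v q = 0) : False := by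
  obtain ⟨p, q, hd⟩ := exists_basis hv
  exact cov hS f hf p q v hd (c4_singular _ (h p) (h q) h0)

/-- A cubic with nonzero discriminant has a flex. -/
theorem exists_flex [IsAlgClosed k] (f : Fin 10 → k) :
    ∃ v : Fin 3 → k, v ≠ 0 ∧ tv f v = 0 ∧ (hm f v).det = 0 := by
  obtain ⟨v, hv, h1, h2⟩ := H424.Z3.common_zero (k := k)
    (tc (fun i => C (f i)) (X 0) (X 1) (X 2)) (hm (fun i => C (f i)) X).det
    (by simp [tc])
    (by
      simp [hm, Matrix.det_fin_three])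
  refine ⟨v, hv, ?_, ?_⟩
  · rw [← h1]
    simp [tc, tv]
  · rw [← h2]
    simp [hm, Matrix.det_fin_three, map_ofNat]

/-- The normal form of a cubic in the coordinates given by a flex. -/
theorem flex_form {g : Fin 10 → k} (h1 : g 1 = 0) (h3 : g 3 = 0) (h6 : g 6 = 0) (h0 : g 0 ≠ 0)
    (h7 : g 7 ≠ 0) : ∃ (a b : k) (B : Matrix (Fin 3) (Fin 3) k), B.det = -(g 0 ^ 2 * g 7 ^ 3) ∧
      ∀ v, tv (wf a b) (B.mulVec v) = g 0 ^ 2 * g 7 ^ 3 * tv g v := by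
  obtain ⟨α, hα⟩ : ∃ α, α = g 0 := ⟨_, rfl⟩
  obtain ⟨β, hβ⟩ : ∃ β, β = g 7 := ⟨_, rfl⟩
  have hα0 : α ≠ 0 := hα ▸ h0
  have hβ0 : β ≠ 0 := hβ ▸ h7
  obtain ⟨δ, hδ⟩ : ∃ δ, δ = g 2 - g 4 ^ 2 / (4 * β) := ⟨_, rfl⟩
  obtain ⟨A, hA⟩ : ∃ A, A = g 5 - g 4 * g 8 / (2 * β) - δ ^ 2 / (3 * α) := ⟨_, rfl⟩
  obtain ⟨E, hE⟩ : ∃ E, E = g 9 - g 8 ^ 2 / (4 * β) - δ ^ 3 / (27 * α ^ 2) - A * δ / (3 * α) :=
    ⟨_, rfl⟩
  refine ⟨α * β ^ 2 * A, -(α ^ 2 * β ^ 3 * E),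
    !![-(α * β), 0, -(α * β) * (δ / (3 * α));
       α * β ^ 2 * (g 4 / (2 * β)), α * β ^ 2, α * β ^ 2 * (g 8 / (2 * β));
       0, 0, 1], ?_, ?_⟩
  · rw [← hα, ← hβ, Matrix.det_fin_three]
    simp
    ring
  · intro v
    have hv : (!![-(α * β), 0, -(α * β) * (δ / (3 * α));
       α * β ^ 2 * (g 4 / (2 * β)), α * β ^ 2, α * β ^ 2 * (g 8 / (2 * β));
       0, 0, 1] : Matrix (Fin 3) (Fin 3) k).mulVec v =
       ![-(α * β) * (v 0 + δ / (3 * α) * v 2),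
        α * β ^ 2 * (v 1 + g 4 / (2 * β) * v 0 + g 8 / (2 * β) * v 2), v 2] := by
      ext i
      fin_cases i <;> simp [Matrix.mulVec, dotProduct, Fin.sum_univ_three] <;> ring
    rw [hv, ← hα, ← hβ]
    simp only [tv, tc, wf, Matrix.cons_val_zero, Matrix.cons_val_one, Matrix.cons_val, h1, h3, h6,
      ← hα, ← hβ]
    rw [hE, hA, hδ]
    field_simp
    ring

/-- The normal form over an algebraically closed field. -/
theorem normal_of (hS : StmtCov) [IsAlgClosed k] (f : Fin 10 → k) (hf : c4 f ^ 3 ≠ c6 f ^ 2) :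
    ∃ A : Matrix (Fin 3) (Fin 3) k, A.det ≠ 0 ∧
    ∀ v : Fin 3 → k, tv (wf (-c4 f / 48) (-c6 f / 864)) (A.mulVec v) = A.det * tv f v := by
  obtain ⟨v, hv, hv0, hdet⟩ := exists_flex f
  obtain ⟨n, hn, hn0⟩ := Matrix.exists_mulVec_eq_zero_iff.2 hdet
  have hb0 : ∀ q, hb f v q n = 0 := by
    intro q
    have e : hb f v q n = q 0 * (hm f v).mulVec n 0 + q 1 * (hm f v).mulVec n 1 +
        q 2 * (hm f v).mulVec n 2 := by
      simp [hb, hm, Matrix.mulVec, dotProduct, Fin.sum_univ_three]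
    rw [e, hn0]
    simp
  -- `n` and `v` are independent
  have hind : ¬ (n 1 * v 2 - n 2 * v 1 = 0 ∧ n 2 * v 0 - n 0 * v 2 = 0 ∧
      n 0 * v 1 - n 1 * v 0 = 0) := by
    rintro ⟨e0, e1, e2⟩
    apply smooth hS f hf hv hv0
    intro q
    -- `n i * dc f v q = 0` for all `i`
    have key : ∀ i, n i * dc f v q = 0 := by
      intro i
      have h1 := hb0 q
      have h2 : ∀ j, n i * v j = v i * n j := by
        intro j
        fin_cases i <;> fin_cases j <;> simp <;>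
          first
          | ring1
          | linear_combination e0
          | linear_combination e1
          | linear_combination e2
          | linear_combination -e0
          | linear_combination -e1
          | linear_combination -e2
      have h3 : 2 * (n i * dc f v q) = v i * hb f v q n := by
        unfold dc hb
        linear_combination
          ((6 * f 0 * v 0 + 2 * f 1 * v 1 + 2 * f 2 * v 2) * q 0 +
            (2 * f 1 * v 0 + 2 * f 3 * v 1 + f 4 * v 2) * q 1 +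
            (2 * f 2 * v 0 + f 4 * v 1 + 2 * f 5 * v 2) * q 2) * h2 0 +
          ((2 * f 1 * v 0 + 2 * f 3 * v 1 + f 4 * v 2) * q 0 +
            (2 * f 3 * v 0 + 6 * f 6 * v 1 + 2 * f 7 * v 2) * q 1 +
            (f 4 * v 0 + 2 * f 7 * v 1 + 2 * f 8 * v 2) * q 2) * h2 1 +
          ((2 * f 2 * v 0 + f 4 * v 1 + 2 * f 5 * v 2) * q 0 +
            (f 4 * v 0 + 2 * f 7 * v 1 + 2 * f 8 * v 2) * q 1 +
            (2 * f 5 * v 0 + 2 * f 8 * v 1 + 6 * f 9 * v 2) * q 2) * h2 2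
      rw [h1, mul_zero] at h3
      exact (mul_eq_zero.1 h3).resolve_left two_ne_zero
    by_contra h
    apply hn
    ext i
    exact (mul_eq_zero.1 (key i)).resolve_right h
  obtain ⟨w, hw⟩ := exists_third hind
  have hd : (cm n v w).det ≠ 0 := by
    rw [hw]
    exact neg_ne_zero.2 one_ne_zero
  obtain ⟨g, hg⟩ : ∃ g, g = sc f n v w := ⟨_, rfl⟩
  have hsub : IsSub f (cm n v w) g := hg ▸ isSub_cm f n v w
  have hgd : c4 g ^ 3 ≠ c6 g ^ 2 := hg ▸ cov hS f hf n v w hd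
  have g3 : g 3 = 0 := by
    have h1 : 2 * dc f v n = hb f v v n := by
      unfold dc hb
      ring
    have h2 := hb0 v
    rw [← h1] at h2
    rw [hg]
    exact (mul_eq_zero.1 h2).resolve_left two_ne_zero
  have g1 : g 1 = 0 := by
    have h1 : 2 * dc f n v = hb f v n n := by
      unfold dc hb
      ring
    have h2 := hb0 n
    rw [← h1] at h2
    rw [hg]
    exact (mul_eq_zero.1 h2).resolve_left two_ne_zero
  have g6 : g 6 = 0 := by
    rw [hg]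
    exact hv0
  have g0 : g 0 ≠ 0 := fun h0 => hgd (c4_reducible g h0 g1 g3 g6)
  have g7 : g 7 ≠ 0 := by
    intro h7
    apply hgd
    simp only [c4, c6, h7, g1, g3, g6]
    ring
  obtain ⟨a, b, B, hB, hBv⟩ := flex_form g1 g3 g6 g0 g7
  obtain ⟨κ, hκ⟩ : ∃ κ, κ = g 0 ^ 2 * g 7 ^ 3 := ⟨_, rfl⟩
  have hκ0 : κ ≠ 0 := by
    rw [hκ]
    exact mul_ne_zero (pow_ne_zero 2 g0) (pow_ne_zero 3 g7)
  rw [← hκ] at hB hBv
  have hdu : IsUnit (cm n v w).det := isUnit_iff_ne_zero.2 hd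
  obtain ⟨A, hA⟩ : ∃ A, A = B * (cm n v w)⁻¹ := ⟨_, rfl⟩
  have hAdet : A.det = κ := by
    rw [hA, Matrix.det_mul, hB, Matrix.det_nonsing_inv, hw, Ring.inverse_eq_inv']
    norm_num
  have hAv : ∀ u, tv (wf a b) (A.mulVec u) = A.det * tv f u := by
    intro u
    rw [hAdet, hA, ← Matrix.mulVec_mulVec, hBv, hsub, Matrix.mulVec_mulVec,
      Matrix.mul_nonsing_inv _ hdu, Matrix.one_mulVec]
  have hA0 : A.det ≠ 0 := by
    rw [hAdet]
    exact hκ0
  obtain ⟨h4, h6⟩ := hS k (wf a b) (fun i => A.det * f i) A hA0 (by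
    intro u
    rw [hAv]
    simp only [tv, tc]
    ring)
  rw [c4_smul, c4_wf] at h4
  rw [c6_smul, c6_wf] at h6
  have e4 := mul_left_cancel₀ (pow_ne_zero 4 hA0) h4
  have e6 := mul_left_cancel₀ (pow_ne_zero 6 hA0) h6
  refine ⟨A, hA0, ?_⟩
  have ea : -c4 f / 48 = a := by
    rw [e4]
    field_simp
  have eb : -c6 f / 864 = b := by
    rw [e6]
    field_simp
  rw [ea, eb]
  exact hAv

/-- [Z2] -/
theorem stmtNormal (hS : StmtCov) : StmtNormal := by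
  intro k _ _ _ f hf
  exact normal_of hS f hf

end

end Vale.Agent.P297.Z3
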