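import Vale.Agent.P297.H424.Z3.Asm
import Vale.Agent.P297.H288.KMain
import Vale.Agent.P297.H72.Camp8

/-!
The main theorem for the general numerical Godeaux surface with torsion of order three, from the
blocks.
-/

set_option linter.unusedSectionVars false

open IntermediateField Polynomial

namespace Vale.Agent.P297.H424

open Vale.Agent.P297 Vale.Agent.P297.Gen Vale.Agent.P297.H54 Vale.Agent.P297.H288
open Vale.Agent.P297.H72 Vale.Agent.P297.H839 Vale.Agent.P297.H600

theorem trdeg_big {K : Type} [Field K] [Algebra ℂ K] (h : Algebra.trdeg ℂ K = 2) :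
    Algebra.trdeg ℂ (BigField K 2) = 4 := by
  have h1 : Algebra.trdeg ℂ K + Algebra.trdeg K (BigField K 2) = Algebra.trdeg ℂ (BigField K 2) :=
    _root_.trdeg_add_eq ℂ K
  rw [← h1, h, ← (bigVar_basis K 2).cardinalMk_eq_trdeg]
  simp only [Cardinal.mk_fin]
  norm_num

variable {K N : Type} [Field K] [Algebra ℂ K] [Field N] [Algebra ℂ N] {P : Par}

/-- **The interface of the link** between the chords and the lines. -/
def Link (m : ℤ) (P : Par) (x₀ : Fin 4 → K) (N : Type) [Field N] [Algebra ℂ N] : Prop :=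
  ∀ (δ c : N) (x y x' y' : Fin 4 → N), GenS P x → GenS P y → GenS P x' → GenS P y' →
    c ^ 3 = x 3 → c ^ 3 = x' 3 → x 1 + c * x 0 + c ^ 2 * x 2 = y 1 + c * y 0 + c ^ 2 * y 2 →
    x' 1 + c * x' 0 + c ^ 2 * x' 2 = y' 1 + c * y' 0 + c ^ 2 * y' 2 →
    IsChord P δ x y → IsChord P δ x' y' → AlgebraicIndependent ℂ ![δ, c] →
    ∀ (e : N) (w : Fin 3 → N), H80.Rts (cc P δ) e w → ∃ (B B' : Fin 3 → N) (n n' : Fin 3 → Fin 3 → N),
      (∀ k, GD P δ e w (B k) (n k)) ∧ (∀ k, GD P δ e w (B' k) (n' k)) ∧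
      ((H288.pt x₀ x + H288.pt x₀ y) + ∑ k, Bsig P x₀ δ (B k) w (n k)) -
        ((H288.pt x₀ x' + H288.pt x₀ y') + ∑ k, Bsig P x₀ δ (B' k) w (n' k)) ∈ Rel m K N

/-- The other side: the cycles of the lines of generic data are constant up to `216`. -/
def LineConst (m : ℤ) (P : Par) (x₀ : Fin 4 → K) (N : Type) [Field N] [Algebra ℂ N] : Prop :=
  ∀ δ : N, Transcendental ℂ δ → ∀ (e : N) (w : Fin 3 → N) (B B' : N) (n n' : Fin 3 → N),
    GD P δ e w B n → GD P δ e w B' n' →
    (216 : ℤ) • (Bsig P x₀ δ B w n - Bsig P x₀ δ B' w n') ∈ Rel m K N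

theorem chordHyp [IsAlgClosed N] {m : ℤ} {x₀ : Fin 4 → K} (hl : Link m P x₀ N)
    (hc : LineConst m P x₀ N) : ChordHyp P x₀ N m 216 := by
  intro δ c x y x' y' h1 h2 h3 h4 h5 h6 h7 h8 h9 h10 h11
  have : CharZero N := charZero_of_injective_algebraMap (algebraMap ℂ N).injective
  have hδ : Transcendental ℂ δ := by
    have := h11.transcendental 0
    exact this
  obtain ⟨e, he⟩ : ∃ e : N, e ^ 2 = H80.disc3 (cc P δ) :=
    IsAlgClosed.exists_pow_nat_eq _ (by norm_num)
  obtain ⟨w, hw⟩ := H80.exists_rts (cc P δ) he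
  obtain ⟨B, B', n, n', hB, hB', hrel⟩ := hl δ c x y x' y' h1 h2 h3 h4 h5 h6 h7 h8 h9 h10 h11 e w hw
  exact chord_of_link (fun k => hc δ hδ e w _ _ _ _ (hB k) (hB' k)) hrel

/-- **The main theorem from the blocks**, for every field of functions dominated by the surface. -/
theorem bloch_of_blocks' {x₀ : Fin 4 → K} (hx : H288.IsFF P x₀) (hl : Link 0 P x₀ (BigField K 2))
    (hc : LineConst 0 P x₀ (BigField K 2)) {K' : Type} [Field K'] [Algebra ℂ K']
    (ι : K' →ₐ[ℂ] K) : PointsEquivalent K' := by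
  have h4 := trdeg_big hx.trdeg
  obtain ⟨e, he, h⟩ := K_side' h4 hx (n := 216) (by norm_num) (chordHyp hl hc)
    (IsScalarTower.toAlgHom ℂ K (BigField K 2))
  have h1 := Rel.precomp ι h
  rw [Finsupp.mapDomain_single] at h1
  exact C8.pointsEquivalent_of_rel _ he h1

/-- **The main theorem from the blocks.** -/
theorem bloch_of_blocks {x₀ : Fin 4 → K} (hx : H288.IsFF P x₀) (hl : Link 0 P x₀ (BigField K 2))
    (hc : LineConst 0 P x₀ (BigField K 2)) : PointsEquivalent K :=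
  bloch_of_blocks' hx hl hc (AlgHom.id ℂ K)

end Vale.Agent.P297.H424
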