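import Vale.Agent.P297.H54.PGlue
import Vale.Agent.P297.H721.Six

/-!
The assembly for the general numerical Godeaux surface with torsion of order three: the interface of
the blocks in the letters of `Lab`, and the chords.
-/

set_option linter.unusedSectionVars false

open IntermediateField Polynomial

namespace Vale.Agent.P297.H424

open Vale.Agent.P297 Vale.Agent.P297.Gen Vale.Agent.P297.H54 Vale.Agent.P297.H288
open Vale.Agent.P297.H72

/-- From the relation between a chord and three lines to the relation between two chords. -/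
theorem chord_of_link {G ι : Type} [AddCommGroup G] [Fintype ι] {R : AddSubgroup G} {n : ℤ}
    {A A' : G} {L L' : ι → G} (h : ∀ i, n • (L i - L' i) ∈ R)
    (hl : (A + ∑ i, L i) - (A' + ∑ i, L' i) ∈ R) : n • (A - A') ∈ R := by
  have h1 : n • (A - A') = n • ((A + ∑ i, L i) - (A' + ∑ i, L' i)) - ∑ i, n • (L i - L' i) := by
    rw [← Finset.smul_sum, Finset.sum_sub_distrib]
    module
  rw [h1]
  exact sub_mem (AddSubgroup.zsmul_mem _ hl n) (sum_mem fun i _ => h i)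

section defs

variable {R : Type} [CommRing R] [Algebra ℂ R] (P : Par)

/-- the coefficients of the cubic `D³ + 3 δ D² - ρ₄ D - ρ₂` -/
def cc (δ : R) : Fin 3 → R :=
  ![-(algebraMap ℂ R (P.t 1) + algebraMap ℂ R (P.z 1) * δ),
    -(algebraMap ℂ R (P.t 3) + algebraMap ℂ R (P.z 3) * δ), 3 * δ]

def s0 (δ B : R) : R := 3 * (B + δ + 1)

def s1 (δ B : R) : R := -(3 * (δ + 1) * B + mu P δ)

theorem map_cc {R' : Type} [CommRing R'] [Algebra ℂ R'] (f : R →ₐ[ℂ] R') (δ : R) (i : Fin 3) :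
    f (cc P δ i) = cc P (f δ) i := by
  fin_cases i
  · change f (-(algebraMap ℂ R (P.t 1) + algebraMap ℂ R (P.z 1) * δ)) = -(algebraMap ℂ R' (P.t 1) + algebraMap ℂ R' (P.z 1) * f δ)
    simp only [map_neg, map_add, map_mul, AlgHom.commutes]
  · change f (-(algebraMap ℂ R (P.t 3) + algebraMap ℂ R (P.z 3) * δ)) = -(algebraMap ℂ R' (P.t 3) + algebraMap ℂ R' (P.z 3) * f δ)
    simp only [map_neg, map_add, map_mul, AlgHom.commutes]
  · change f (3 * δ) = 3 * f δ
    simp only [map_mul, map_ofNat]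

theorem map_s0 {R' : Type} [CommRing R'] [Algebra ℂ R'] (f : R →ₐ[ℂ] R') (δ B : R) :
    f (s0 δ B) = s0 (f δ) (f B) := by
  simp only [s0, map_mul, map_add, map_one, map_ofNat]

theorem map_s1 {R' : Type} [CommRing R'] [Algebra ℂ R'] (f : R →ₐ[ℂ] R') (δ B : R) :
    f (s1 P δ B) = s1 P (f δ) (f B) := by
  simp only [s1, map_neg, map_mul, map_add, map_one, map_ofNat, map_mu]

end defs

section field

variable {K N : Type} [Field K] [Algebra ℂ K] [Field N] [Algebra ℂ N] (P : Par)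

/-- **The generic data of the blocks**: ordered roots `w` with orientation `e` and a generic point
`(B, n)` of the plane cubic over `δ`. -/
abbrev GD (δ e : N) (w : Fin 3 → N) (B : N) (n : Fin 3 → N) : Prop :=
  GDat (cc P δ) (s0 δ) (s1 P δ) (ff2 P δ) δ e w B n

variable {P}

theorem rts_iff {δ e : N} {w : Fin 3 → N} : H80.Rts (cc P δ) e w ↔
    (w 0 + w 1 + w 2 = -(3 * δ) ∧ w 0 * w 1 + w 1 * w 2 + w 2 * w 0 =
      -(algebraMap ℂ N (P.t 3) + algebraMap ℂ N (P.z 3) * δ) ∧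
      w 0 * w 1 * w 2 = algebraMap ℂ N (P.t 1) + algebraMap ℂ N (P.z 1) * δ ∧
      (w 0 - w 1) * (w 1 - w 2) * (w 2 - w 0) = e) := by
  constructor
  · intro h
    refine ⟨h.s2, h.s1, ?_, h.ori⟩
    rw [h.s0]
    exact neg_neg _
  · rintro ⟨h2, h1, h0, h⟩
    refine ⟨?_, h1, h2, h⟩
    rw [h0]
    exact (neg_neg _).symm

theorem GD.lab {δ e : N} {w : Fin 3 → N} {B : N} {n : Fin 3 → N} (h : GD P δ e w B n) :
    Lab P δ B w n := by
  obtain ⟨h2, h1, h0, -⟩ := rts_iff.1 h.rts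
  exact ⟨h2, h1, h0, h.s0, h.s1, h.pr⟩

theorem gd_of_lab {δ : N} {w : Fin 3 → N} {B : N} {n : Fin 3 → N} (h : Lab P δ B w n)
    (hB : B ∉ cl0 {δ}) : GD P δ ((w 0 - w 1) * (w 1 - w 2) * (w 2 - w 0)) w B n where
  rts := rts_iff.2 ⟨h.w1, h.w2, h.w3, rfl⟩
  s0 := h.n1
  s1 := h.n2
  pr := h.n3
  gen := hB

/-- The cycle of the points of the surface on the curve, in the order of the arguments of
`GDat`. -/
noncomputable abbrev Bs (P : Par) (x : Fin 4 → K) (δ : N) (w : Fin 3 → N) (B : N) (n : Fin 3 → N) :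
    (K →ₐ[ℂ] N) →₀ ℤ := Bsig P x δ B w n

variable [IsAlgClosed N] [CharZero N]

theorem equS {x : Fin 4 → K} (hx : H288.IsFF P x) (δ : N) :
    EquS (cc P δ) (s0 δ) (s1 P δ) (ff2 P δ) δ (Bs P x δ) := by
  intro g hg e v β n _
  have h := map_Bsig hx g.toAlgHom δ β v n
  change Finsupp.mapDomain (fun φ : K →ₐ[ℂ] N => g.toAlgHom.comp φ) (Bsig P x δ β v n) = _
  rw [h]
  change Bsig P x (g δ) (g β) (g ∘ v) (g ∘ n) = _
  rw [hg]

/-- the relation of the pencil of the first root -/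
def R0 (m : ℤ) (P : Par) (x : Fin 4 → K) (δ : N) : Prop :=
  Rel0 m (cc P δ) (s0 δ) (s1 P δ) (ff2 P δ) δ (Bs P x δ)

/-- the relation of the pencil of the second root -/
def R1 (m : ℤ) (P : Par) (x : Fin 4 → K) (δ : N) : Prop :=
  Rel1 m (cc P δ) (s0 δ) (s1 P δ) (ff2 P δ) δ (Bs P x δ)

/-- **The cycle of the curve of a generic datum is constant up to `216`.** -/
theorem line_const {m : ℤ} (h4 : Algebra.trdeg ℂ N = 4) {p q D lam : ℂ[X]} (hp : p.natDegree ≤ 4)
    (hq : q.natDegree ≤ 6) (hdisc : 4 * p ^ 3 + 27 * q ^ 2 ≠ 0)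
    (hnt : ∀ α β a b : ℂ, ¬ (p = C α * (C a * X + C b) ^ 4 ∧ q = C β * (C a * X + C b) ^ 6))
    (hD : D ≠ 0) (hlam : lam ≠ 0) {F : Fin 10 → ℂ[X]} (hF6 : F 6 ≠ 0)
    (hc4 : Z3.c4 F = C (-48) * lam ^ 4 * D ^ 2 * p)
    (hc6 : Z3.c6 F = C (-864) * lam ^ 6 * D ^ 3 * q)
    {δ : N} (hδ : Transcendental ℂ δ)
    (hcD : H80.disc3 (cc P δ) = aeval δ D)
    (htc : ∀ X Y, Z3.tc (fun i => aeval δ (F i)) X Y 1 = 0 ↔
      H80.nrm3 (cc P δ) ![s0 δ X, s1 P δ X, Y] = -(H80.disc3 (cc P δ) * ff2 P δ X))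
    {x : Fin 4 → K} (hx : H288.IsFF P x) (hR0 : R0 m P x δ) (hR1 : R1 m P x δ)
    {e : N} {w : Fin 3 → N} {B B' : N} {n n' : Fin 3 → N}
    (h : GD P δ e w B n) (h' : GD P δ e w B' n') :
    (216 : ℤ) • (Bsig P x δ B w n - Bsig P x δ B' w n') ∈ Rel m K N := by
  refine delta216 h4 hp hq hdisc hnt hD hlam hF6 hc4 hc6 hδ (fun g hg i => ?_) (fun g hg y => ?_)
    (fun g hg y => ?_) hcD htc (equS hx δ) hR0 hR1 h h'
  · have := map_cc P g.toAlgHom δ i
    change g (cc P δ i) = cc P (g δ) i at this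
    rw [this, hg]
  · have := map_s0 g.toAlgHom δ y
    change g (s0 δ y) = s0 (g δ) (g y) at this
    rw [this, hg]
  · have := map_s1 P g.toAlgHom δ y
    change g (s1 P δ y) = s1 P (g δ) (g y) at this
    rw [this, hg]

end field

end Vale.Agent.P297.H424
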