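import Vale.Agent.P297.H925.InvPoly

/-!
The non-degeneracy condition for the general numerical Godeaux surface with torsion of order three:
the discriminant of the plane cubic over the line is not the twelfth power of a linear form.
-/

set_option linter.unusedSectionVars false

open Polynomial

namespace Vale.Agent.P297.H424

open Vale.Agent.P297 Vale.Agent.P297.H288 Vale.Agent.P297.Z3

section defs

variable {R : Type} [CommRing R] [Algebra ℂ R] (P : Par)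

/-- `t_{i+1} + ζ_{i+1} d` -/
def ro (d : R) (i : Fin 4) : R := algebraMap ℂ R (P.t i) + algebraMap ℂ R (P.z i) * d

def g1 (d : R) : R := 6 * (d + 1) - 3 * (d + 1) ^ 2 - ro P d 3

def g0 (d : R) : R := 2 * (d + 1) ^ 3 - 3 * (d + 1) ^ 2 + ro P d 3 * (d + 1) - ro P d 1

def f1 (d : R) : R := 6 * (d + 1) - 3 * (d + 1) ^ 2 - ro P d 2

def f0 (d : R) : R := 2 * (d + 1) ^ 3 - 3 * (d + 1) ^ 2 + ro P d 2 * (d + 1) - ro P d 0

def nu (d : R) : R := 6 * (d + 1) ^ 2 - 9 * (d + 1) + ro P d 2 + ro P d 3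

/-- the discriminant of `T³ - 3 T² + g1 T + g0` -/
def dg (d : R) : R := -4 * g1 P d ^ 3 + 9 * g1 P d ^ 2 - 54 * g1 P d * g0 P d - 27 * g0 P d ^ 2 +
  108 * g0 P d

/-- The coefficients (of `x³, x²y, x²z, xy², xyz, xz², y³, y²z, yz², z³`) of the plane cubic
`∏ (y + (b_j + b_k) ν z + 3 b_j b_k x) + dg (x³ - 3 x² z + f1 x z² + f0 z³)`, with the zeros `b_i`
of `T³ - 3 T² + g1 T + g0`. -/
def gam (d : R) : Fin 10 → R :=
  ![dg P d + 27 * g0 P d ^ 2, -27 * g0 P d, -3 * dg P d - 18 * g1 P d * g0 P d * nu P d, 3 * g1 P d,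
    9 * (g1 P d - g0 P d) * nu P d, f1 P d * dg P d + 3 * (g1 P d ^ 2 - 3 * g0 P d) * nu P d ^ 2, 1,
    6 * nu P d, (g1 P d + 9) * nu P d ^ 2, f0 P d * dg P d + (3 * g1 P d + g0 P d) * nu P d ^ 3]

theorem gam_eq (d : R) : gam P d = H925.Fc (g1 P d) (g0 P d) (f1 P d) (f0 P d) (nu P d) := rfl

/-- The plane cubic as a norm. -/
theorem tc_gam {d b0 b1 b2 : R} (h1 : b0 + b1 + b2 = 3) (h2 : b0 * b1 + b1 * b2 + b2 * b0 = g1 P d)
    (h3 : b0 * b1 * b2 = -g0 P d) (x y z : R) : tc (gam P d) x y z =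
      (y + (b1 + b2) * nu P d * z + 3 * b1 * b2 * x) * (y + (b2 + b0) * nu P d * z + 3 * b2 * b0 * x) *
        (y + (b0 + b1) * nu P d * z + 3 * b0 * b1 * x) +
      dg P d * (x ^ 3 - 3 * x ^ 2 * z + f1 P d * x * z ^ 2 + f0 P d * z ^ 3) := by
  have e := H925.tc_Fc (g1 P d) (g0 P d) (f1 P d) (f0 P d) (nu P d) x y z
  have e1 := H925.Nm_roots b0 b1 b2 (3 * x) (-(nu P d * z)) y h1
  rw [h2, show -(b0 * b1 * b2) = g0 P d by rw [h3, neg_neg]] at e1
  rw [gam_eq, e, e1]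
  unfold dg H925.Dg
  ring

end defs

/-- The non-degeneracy condition: the discriminant of the plane cubic is not of the form
`c disc⁶ (a d + b)¹²`. -/
def NonDeg (P : Par) : Prop := ∀ c a b : ℂ, ∃ d : ℂ,
  c4 (gam P d) ^ 3 - c6 (gam P d) ^ 2 ≠ c * dg P d ^ 6 * (a * d + b) ^ 12

theorem NonDeg.poly {P : Par} (h : NonDeg P) (c a b : ℂ) :
    4 * H925.pX P ^ 3 + 27 * H925.qX P ^ 2 ≠ C c * (C a * X + C b) ^ 12 := by
  intro h0
  obtain ⟨d, hd⟩ := h (-(27 / 4) * c) a b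
  apply hd
  have hr : ∀ i, (H925.rho P (X : ℂ[X]) i).eval d = ro P d i := by
    intro i
    simp only [H925.rho, ro, Polynomial.algebraMap_eq, eval_add, eval_mul, eval_C, eval_X,
      Algebra.algebraMap_self, RingHom.id_apply]
  have h4 : (H925.A4 (X + 1 : ℂ[X]) (H925.rho P X 1) (H925.rho P X 0) (H925.rho P X 3)
      (H925.rho P X 2)).eval d = H925.A4 (d + 1) (ro P d 1) (ro P d 0) (ro P d 3) (ro P d 2) := by
    rw [← hr 0, ← hr 1, ← hr 2, ← hr 3]
    simp only [H925.A4, H925.A40, H925.A41, H925.A42, H925.A43, eval_add, eval_sub, eval_mul,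
      eval_pow, eval_X, eval_one, eval_ofNat, eval_neg]
  have h6 : (H925.A6 (X + 1 : ℂ[X]) (H925.rho P X 1) (H925.rho P X 0) (H925.rho P X 3)
      (H925.rho P X 2)).eval d = H925.A6 (d + 1) (ro P d 1) (ro P d 0) (ro P d 3) (ro P d 2) := by
    rw [← hr 0, ← hr 1, ← hr 2, ← hr 3]
    simp only [H925.A6, H925.A60, H925.A61, H925.A62, H925.A63, H925.A64, H925.A65, eval_add,
      eval_sub, eval_mul, eval_pow, eval_X, eval_one, eval_ofNat, eval_neg]
  have e4 := H925.c4_Fc (g1 P d) (g0 P d) (f1 P d) (f0 P d) (nu P d)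
  have e6 := H925.c6_Fc (g1 P d) (g0 P d) (f1 P d) (f0 P d) (nu P d)
  have k4 := H925.P4_eq (d + 1) (ro P d 1) (ro P d 0) (ro P d 3) (ro P d 2)
  have k6 := H925.P6_eq (d + 1) (ro P d 1) (ro P d 0) (ro P d 3) (ro P d 2)
  have hν : 6 * (d + 1) ^ 2 - 9 * (d + 1) + ro P d 3 + ro P d 2 = nu P d := by
    unfold nu
    ring
  rw [hν] at k4 k6
  change H925.P4 (g1 P d) (g0 P d) (f1 P d) (f0 P d) (nu P d) = _ at k4
  change H925.P6 (g1 P d) (g0 P d) (f1 P d) (f0 P d) (nu P d) = _ at k6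
  rw [← gam_eq, k4] at e4
  rw [← gam_eq, k6] at e6
  have h1 := congrArg (eval d) h0
  rw [H925.pX, H925.qX] at h1
  simp only [eval_add, eval_mul, eval_pow, eval_ofNat, eval_neg, h4, h6, eval_C, eval_X] at h1
  rw [e4, e6]
  change (9 * dg P d ^ 2 * _) ^ 3 - (27 * dg P d ^ 3 * _) ^ 2 = _
  linear_combination (-(27 / 4) * dg P d ^ 6) * h1

end Vale.Agent.P297.H424
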