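import Vale.Agent.P297.H424.Z3.Main
import Vale.Agent.P297.H160.Z3Irr
import Vale.Agent.P297.H777.Z3Smooth
import Vale.Agent.P297.H424.Z3.NonDeg
import Vale.Agent.P297.H925.InvAsm

/-!
The general numerical Godeaux surface with torsion of order three: the final form of the theorem.
-/

set_option linter.unusedSectionVars false

open IntermediateField Polynomial

namespace Vale.Agent.P297.H424

open Vale.Agent.P297 Vale.Agent.P297.Gen Vale.Agent.P297.H54 Vale.Agent.P297.H288
open Vale.Agent.P297.H72 Vale.Agent.P297.H839 Vale.Agent.P297.H600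

theorem FreeS.irr {P : Par} (h : FreeS P) : Irreducible (hP P) :=
  H160.Z3Irr.irr_of_free P (fun c h1 h2 => h.1 c ⟨h1, h2⟩) (fun c h1 h2 => h.2 c ⟨h1, h2⟩)

/-- The function field of the surface. -/
theorem isFF_of {P : Par} (hP : FreeS P) {K : Type} [Field K] [Algebra ℂ K] {x : Fin 4 → K}
    (htop : IntermediateField.adjoin ℂ (Set.range x) = ⊤)
    (hA : eA P (x 0) (x 1) (x 2) (x 3) = 0) (hB : eB P (x 0) (x 1) (x 2) (x 3) = 0)
    (hne : 1 + x 3 ≠ 0) (htr : Algebra.trdeg ℂ K = 2) : H288.IsFF P x := by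
  have hirr := FreeS.irr hP
  have hind : ∃ i j, AlgebraicIndependent ℂ ![x i, x j] := by
    obtain ⟨t, ht⟩ := exists_isTranscendenceBasis' ℂ (A := K)
    obtain ⟨u, hu⟩ := ht
    have h1 : Cardinal.mk (Fin 2) = Cardinal.mk t := by
      rw [hu.cardinalMk_eq_trdeg, htr, Cardinal.mk_fin]
      rfl
    obtain ⟨e⟩ := Cardinal.eq.1 h1
    obtain ⟨s, hs⟩ := H777.exists_indep x (fun i => u (e i)) (hu.1.comp e e.injective) (by
      intro i
      rw [htop]
      trivial)
    refine ⟨s 0, s 1, ?_⟩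
    convert hs using 1
    funext i
    fin_cases i <;> rfl
  have hgen : GenS P x := GenS.of_ind hirr hA hB hne hind
  exact ⟨htop, hA, hB, hne, hgen.nV, htr, hirr⟩

/-- The constancy of the cycles of the lines. -/
theorem lineConst_of {P : Par} (hP : FreeS P)
    (hΔ : ∀ c a b : ℂ, 4 * H925.pX P ^ 3 + 27 * H925.qX P ^ 2 ≠ C c * (C a * X + C b) ^ 12) {m : ℤ} {K N : Type} [Field K]
    [Algebra ℂ K] [Field N] [Algebra ℂ N] [IsAlgClosed N] (h4 : Algebra.trdeg ℂ N = 4)
    {x : Fin 4 → K} (hx : H288.IsFF P x) (hR0 : ∀ δ : N, Transcendental ℂ δ → R0 m P x δ)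
    (hR1 : ∀ δ : N, Transcendental ℂ δ → R1 m P x δ) : LineConst m P x N := by
  have : CharZero N := charZero_of_injective_algebraMap (algebraMap ℂ N).injective
  intro δ hδ e w B B' n n' h h'
  refine H925.line_const h4 ?_ ?_ ?_ hδ hx (hR0 δ hδ) (hR1 δ hδ) h h'
  · intro h0
    apply hΔ 0 0 0
    rw [h0, C_0, zero_mul]
  · rintro α β a b ⟨hp, hq⟩
    apply hΔ (4 * α ^ 3 + 27 * β ^ 2) a b
    rw [hp, hq]
    simp only [C_add, C_mul, C_pow, map_ofNat]
    ring
  · exact discX_cf0_ne hP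

end Vale.Agent.P297.H424
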