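import Vale.Agent.P297.H424.Z3.Final
import Vale.Agent.P297.H721.RZ
import Vale.Agent.P297.H721.ROne
import Vale.Agent.P297.H637.LinkFin

/-!
The theorem for the general numerical Godeaux surface with torsion of order three.
-/

set_option linter.unusedSectionVars false

open IntermediateField Polynomial

namespace Vale.Agent.P297.H424

open Vale.Agent.P297 Vale.Agent.P297.Gen Vale.Agent.P297.H54 Vale.Agent.P297.H288
open Vale.Agent.P297.H72 Vale.Agent.P297.H839 Vale.Agent.P297.H600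

theorem link_of {m : ℤ} {P : Par} {K N : Type} [Field K] [Algebra ℂ K] [Field N] [Algebra ℂ N]
    [IsAlgClosed N] {x₀ : Fin 4 → K} (hx : H288.IsFF P x₀) : Link m P x₀ N :=
  fun _ _ _ _ _ _ h1 h2 h3 h4 h5 h6 h7 h8 h9 h10 h11 _ _ hw =>
    H637.link_chord hx h1 h2 h3 h4 h5 h6 h7 h8 h9 h10 h11 hw

/-- **Bloch's conjecture for the numerical Godeaux surfaces with torsion of order three.** -/
theorem godeaux_three {P : Par} (hP : FreeS P)
    (hΔ : ∀ c a b : ℂ, 4 * H925.pX P ^ 3 + 27 * H925.qX P ^ 2 ≠ C c * (C a * X + C b) ^ 12)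
    {K : Type} [Field K] [Algebra ℂ K] {x : Fin 4 → K} (htop : IntermediateField.adjoin ℂ (Set.range x) = ⊤)
    (hA : eA P (x 0) (x 1) (x 2) (x 3) = 0) (hB : eB P (x 0) (x 1) (x 2) (x 3) = 0)
    (hne : 1 + x 3 ≠ 0) (htr : Algebra.trdeg ℂ K = 2) {L : Type} [Field L] [Algebra ℂ L]
    (ι : L →ₐ[ℂ] K) : PointsEquivalent L := by
  have : CharZero (BigField K 2) :=
    charZero_of_injective_algebraMap (algebraMap ℂ (BigField K 2)).injective
  have hx := isFF_of hP htop hA hB hne htr
  exact bloch_of_blocks' hx (link_of hx) (lineConst_of hP hΔ (trdeg_big htr) hx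
    (fun δ hδ => H721.R0_of hx hP hδ) (fun δ hδ => H721.R1_of hx hP hδ)) ι

/-- The same for the field generated by four elements. -/
theorem godeaux_three'' {P : Par} (hP : FreeS P)
    (hΔ : ∀ c a b : ℂ, 4 * H925.pX P ^ 3 + 27 * H925.qX P ^ 2 ≠ C c * (C a * X + C b) ^ 12)
    {K : Type} [Field K] [Algebra ℂ K] (s u v w : K) (htr : Algebra.trdeg ℂ K = 2)
    (htop : IntermediateField.adjoin ℂ {s, u, v, w} = ⊤) (hw : w ≠ -1) (hA : eA P s u v w = 0)
    (hB : eB P s u v w = 0) {L : Type} [Field L] [Algebra ℂ L] (ι : L →ₐ[ℂ] K) :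
    PointsEquivalent L := by
  have hr : Set.range ![s, u, v, w] = {s, u, v, w} := by
    ext z
    constructor
    · rintro ⟨i, rfl⟩
      fin_cases i <;> simp
    · rintro (rfl | rfl | rfl | rfl)
      · exact ⟨0, rfl⟩
      · exact ⟨1, rfl⟩
      · exact ⟨2, rfl⟩
      · exact ⟨3, rfl⟩
  refine godeaux_three hP hΔ (x := ![s, u, v, w]) (by rw [hr]; exact htop) hA hB ?_ htr ι
  intro h0
  apply hw
  change 1 + w = 0 at h0
  linear_combination h0

/-- The same with the explicit non-degeneracy condition. -/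
theorem godeaux_three' {P : Par} (hP : FreeS P) (hN : NonDeg P) {K : Type} [Field K] [Algebra ℂ K]
    (s u v w : K) (htr : Algebra.trdeg ℂ K = 2)
    (htop : IntermediateField.adjoin ℂ {s, u, v, w} = ⊤) (hw : w ≠ -1) (hA : eA P s u v w = 0)
    (hB : eB P s u v w = 0) {L : Type} [Field L] [Algebra ℂ L] (ι : L →ₐ[ℂ] K) :
    PointsEquivalent L :=
  godeaux_three'' hP hN.poly s u v w htr htop hw hA hB ι

end Vale.Agent.P297.H424
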